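import Vale.Agent.P366M.Calc

/-!
# P223P: one radial push of a tuple of scores (helper90)
-/

open Filter Topology Set
open scoped ContDiff
open Vale.Agent.P366M

noncomputable section

namespace Vale.Agent.P223P

open Real (smoothTransition)

section Gb

variable {n : ℕ} {X : Type} [Mf0 n X] {g : Fld n X} {x : X} {f h : X → ℝ} {a b : ℝ}

/-- differentiable with a bound for the gradient -/
def Gb (g : Fld n X) (x : X) (f : X → ℝ) (a : ℝ) : Prop := DAt f x ∧ gn g f x ≤ a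

theorem Gb.mono (hf : Gb g x f a) (e : a ≤ b) : Gb g x f b := ⟨hf.1, hf.2.trans e⟩

theorem gb_const (c : ℝ) : Gb g x (fun _ => c) 0 :=
  ⟨dAt_const c, (gn_zero fun i => pd_const c i x).le⟩

theorem Gb.add (hg : Met g) (hf : Gb g x f a) (hh : Gb g x h b) :
    Gb g x (fun y => f y + h y) (a + b) :=
  ⟨hf.1.add hh.1, (hg.gn_add_le fun i => pd_add hf.1 hh.1 i).trans (add_le_add hf.2 hh.2)⟩

theorem Gb.comp {φ : ℝ → ℝ} {d : ℝ} (hf : Gb g x f a) (hφ : HasDerivAt φ d (f x)) :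
    Gb g x (fun y => φ (f y)) (|d| * a) :=
  ⟨hφ.differentiableAt.compM hf.1, by
    rw [gn_comp hφ hf.1]; exact mul_le_mul_of_nonneg_left hf.2 (abs_nonneg _)⟩

theorem Gb.mul (hg : Met g) (hf : Gb g x f a) (hh : Gb g x h b) :
    Gb g x (fun y => f y * h y) (|h x| * a + |f x| * b) := by
  have A := hf.comp (φ := fun t => h x * t) (by simpa using (hasDerivAt_id (f x)).const_mul (h x))
  have B := hh.comp (φ := fun t => f x * t) (by simpa using (hasDerivAt_id (h x)).const_mul (f x))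
  refine ⟨hf.1.mul hh.1, (hg.gn_add_le fun i => ?_).trans (add_le_add A.2 B.2)⟩
  rw [pd_mul hf.1 hh.1, pd_const_mul, pd_const_mul]; ring

theorem Gb.sum (hg : Met g) {ι : Type} (s : Finset ι) {F : ι → X → ℝ} {a : ι → ℝ}
    (H : ∀ i ∈ s, Gb g x (F i) (a i)) : Gb g x (fun y => ∑ i ∈ s, F i y) (∑ i ∈ s, a i) := by
  classical
  induction s using Finset.induction_on with
  | empty => simpa using gb_const 0
  | insert i s hi ih =>
    simp only [Finset.sum_insert hi]
    exact (H i (by simp)).add hg (ih fun j hj => H j (by simp [hj]))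

end Gb

theorem st_bd : ∃ C ≥ (0 : ℝ), ∀ t, ∃ d, HasDerivAt smoothTransition d t ∧ |d| ≤ C ∧
    (t < 0 → d = 0) := by
  have S : ContDiff ℝ 1 smoothTransition := smoothTransition.contDiff
  obtain ⟨C, hC⟩ := isCompact_Icc.exists_bound_of_continuousOn (s := Icc (0 : ℝ) 1)
    (S.continuous_deriv le_rfl).continuousOn
  have z : ∀ t < (0 : ℝ), deriv smoothTransition t = 0 := fun t ht => by
    rw [Filter.EventuallyEq.deriv_eq (f := fun _ => (0 : ℝ)), deriv_const]
    filter_upwards [Iio_mem_nhds ht] with s hs using smoothTransition.zero_of_nonpos hs.le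
  refine ⟨max C 0, le_max_right _ _, fun t => ⟨_, (S.differentiable one_ne_zero t).hasDerivAt,
    ?_, z t⟩⟩
  rcases lt_or_ge t 0 with h | h
  · simp [z t h]
  rcases le_or_gt t 1 with k | k
  · exact (hC t ⟨h, k⟩).trans (le_max_left _ _)
  · rw [Filter.EventuallyEq.deriv_eq (f := fun _ => (1 : ℝ)), deriv_const]
    · simp
    filter_upwards [Ioi_mem_nhds k] with s hs using smoothTransition.one_of_one_le hs.le

variable {J : ℕ} (I : Finset (Fin J)) (c Λ k : ℝ) (t : Fin J → ℝ) (q : (Fin J → ℝ) × ℝ)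

/-- the square of the normalised distance to the centre -/
def sq (y : Fin J → ℝ) : ℝ := ∑ j ∈ I, ((y j - t j) / c) ^ 2

/-- the regularised inverse distance -/
def uu : ℝ := (√(sq I c t q.1 + (q.2 / Λ) ^ 2))⁻¹

/-- the factor of the slope multiplier -/
def mu : ℝ := 1 + k * (smoothTransition (3 - sq I c t q.1) * uu I c Λ t q)

/-- the push -/
def ps : (Fin J → ℝ) × ℝ :=
  (fun j => q.1 j + if j ∈ I then 2 * (smoothTransition (2 - sq I c t q.1) *
    (uu I c Λ t q * (q.1 j - t j))) else 0, q.2 * mu I c Λ k t q)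

variable {I c Λ k t q} {y : Fin J → ℝ} {a : ℝ} {j : Fin J}

theorem sq_nn : 0 ≤ sq I c t y := Finset.sum_nonneg fun _ _ => sq_nonneg _

theorem le_sq (hj : j ∈ I) : ((y j - t j) / c) ^ 2 ≤ sq I c t y :=
  Finset.single_le_sum (f := fun j => ((y j - t j) / c) ^ 2) (fun _ _ => sq_nonneg _) hj

theorem abs_le_sq (hj : j ∈ I) : |(y j - t j) / c| ≤ √(sq I c t y) := Real.abs_le_sqrt (le_sq hj)

theorem uu_nn : 0 ≤ uu I c Λ t q := inv_nonneg.2 (Real.sqrt_nonneg _)

theorem w_pos (hq : 0 < q.2) (hΛ : 0 < Λ) : 0 < sq I c t q.1 + (q.2 / Λ) ^ 2 :=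
  add_pos_of_nonneg_of_pos sq_nn (by positivity)

theorem uu_sq (hq : 0 < q.2) (hΛ : 0 < Λ) :
    uu I c Λ t q ^ 2 * (sq I c t q.1 + (q.2 / Λ) ^ 2) = 1 := by
  rw [uu, inv_pow, Real.sq_sqrt (w_pos hq hΛ).le, inv_mul_cancel₀ (w_pos hq hΛ).ne']

theorem uu_le1 (hq : 0 < q.2) (hΛ : 0 < Λ) : uu I c Λ t q * √(sq I c t q.1) ≤ 1 := by
  have := uu_sq (I := I) (c := c) (t := t) hq hΛ
  have e := Real.sq_sqrt (sq_nn (I := I) (c := c) (t := t) (y := q.1))
  refine abs_le_one_iff_mul_self_le_one.2 ?_ |> (le_abs_self _).trans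
  nlinarith [sq_nonneg (uu I c Λ t q * (q.2 / Λ))]

theorem uu_le2 (hq : 0 < q.2) (hΛ : 0 < Λ) : uu I c Λ t q * q.2 ≤ Λ := by
  have := uu_sq (I := I) (c := c) (t := t) hq hΛ
  rw [← div_le_one hΛ, mul_div_assoc]
  refine abs_le_one_iff_mul_self_le_one.2 ?_ |> (le_abs_self _).trans
  nlinarith [mul_nonneg (sq_nonneg (uu I c Λ t q)) (sq_nn (I := I) (c := c) (t := t) (y := q.1))]

theorem one_le_mu (hk : 0 ≤ k) : 1 ≤ mu I c Λ k t q :=
  le_add_of_nonneg_right (mul_nonneg hk (mul_nonneg (smoothTransition.nonneg _) uu_nn))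

theorem mu_le (hk : 0 ≤ k) : mu I c Λ k t q ≤ 1 + k * uu I c Λ t q := by
  unfold mu
  gcongr
  exact mul_le_of_le_one_left uu_nn (smoothTransition.le_one _)

theorem mu_off (h : 3 ≤ sq I c t q.1) : mu I c Λ k t q = 1 := by
  simp [mu, smoothTransition.zero_of_nonpos (sub_nonpos.2 h)]

theorem ps_off (h : 3 ≤ sq I c t q.1) : ps I c Λ k t q = q := by
  have : smoothTransition (2 - sq I c t q.1) = 0 := smoothTransition.zero_of_nonpos (by linarith)
  simp [ps, mu_off h, this]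

theorem near (hc : 0 < c) (h : sq I c t y < 3) (hj : j ∈ I) : |y j - t j| < 2 * c := by
  have := (le_sq hj).trans_lt h
  rw [← div_lt_iff₀ hc, ← abs_of_pos hc, ← abs_div, abs_lt]
  constructor <;> nlinarith

theorem far (hc : 0 < c) (ht : |t j| ≤ c) (hj : j ∈ I) (h : 3 * c ≤ |y j|) : 3 ≤ sq I c t y := by
  by_contra H
  have := near hc (not_le.1 H) hj
  have := abs_sub_abs_le_abs_sub (y j) (t j)
  linarith

theorem ps_le (hq : 0 < q.2) (hΛ : 0 < Λ) (hk : 0 ≤ k) :
    q.2 ≤ (ps I c Λ k t q).2 ∧ (ps I c Λ k t q).2 ≤ q.2 + k * Λ := by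
  have A := uu_le2 (I := I) (c := c) (t := t) hq hΛ
  refine ⟨le_mul_of_one_le_right hq.le (one_le_mu hk), ?_⟩
  refine (mul_le_mul_of_nonneg_left (mu_le hk) hq.le).trans ?_
  nlinarith

theorem ps_side (ht : |t j| ≤ a) (h : |(ps I c Λ k t q).1 j| ≤ a) : |q.1 j| ≤ a := by
  simp only [ps] at h
  split_ifs at h
  · have P := mul_nonneg (smoothTransition.nonneg (2 - sq I c t q.1))
      (uu_nn (I := I) (c := c) (Λ := Λ) (t := t) (q := q))
    rw [← mul_assoc _ (uu I c Λ t q)] at h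
    rw [abs_le] at *
    constructor <;> by_contra H <;> nlinarith
  · simpa using h

theorem ps_core (hc : 0 < c) (hq : 0 < q.2) (hΛ : 0 < Λ) (hk : 2 ≤ k) (ht : ∀ j, |t j| ≤ a)
    (ha : I.card * (2 * a) ^ 2 ≤ c ^ 2) (h : ∀ j ∈ I, |(ps I c Λ k t q).1 j| ≤ a) :
    Λ ≤ (ps I c Λ k t q).2 := by
  have U := uu_nn (I := I) (c := c) (Λ := Λ) (t := t) (q := q)
  have W := uu_sq (I := I) (c := c) (t := t) hq hΛ
  have S := sq_nn (I := I) (c := c) (t := t) (y := q.1)
  have P := mul_nonneg (smoothTransition.nonneg (2 - sq I c t q.1)) U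
  have A : (1 + 2 * (smoothTransition (2 - sq I c t q.1) * uu I c Λ t q)) ^ 2 * sq I c t q.1 ≤ 1 := by
    have : ∀ j ∈ I, (1 + 2 * (smoothTransition (2 - sq I c t q.1) * uu I c Λ t q)) ^ 2 *
        ((q.1 j - t j) / c) ^ 2 ≤ (2 * a) ^ 2 / c ^ 2 := fun j hj => by
      have := h j hj
      simp only [ps, hj, if_true] at this
      rw [div_pow, ← mul_div_assoc, ← mul_pow]
      gcongr ?_ / _
      have := ht j
      rw [abs_le] at *
      exact sq_le_sq' (by linarith) (by linarith)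
    calc _ = ∑ j ∈ I, _ := Finset.mul_sum _ _ _
      _ ≤ _ := Finset.sum_le_card_nsmul _ _ _ this
      _ ≤ 1 := by rw [nsmul_eq_mul, ← mul_div_assoc, div_le_one (by positivity)]; exact ha
  have B : sq I c t q.1 ≤ 1 := by nlinarith [mul_nonneg P S, mul_nonneg (mul_nonneg P P) S]
  rw [smoothTransition.one_of_one_le (by linarith), one_mul] at A
  have E : 1 ≤ 2 * (uu I c Λ t q * (q.2 / Λ)) := by
    by_contra H
    have := mul_nonneg U (div_pos hq hΛ).le
    nlinarith [mul_nonneg U S]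
  simp only [ps, mu]
  rw [smoothTransition.one_of_one_le (by linarith), one_mul]
  rw [← mul_div_assoc, ← mul_div_assoc, le_div_iff₀ hΛ] at E
  nlinarith [mul_nonneg U hq.le]

variable {n : ℕ} {X : Type} [Mf0 n X] {g : Fld n X} {x : X} {σ : X → (Fin J → ℝ) × ℝ}

theorem sm_sq (h1 : ∀ j, Smooth fun x => (σ x).1 j) : Smooth fun x => sq I c t (σ x).1 :=
  CD.sum fun j _ => (((h1 j).sub cd_const).div_const c).pow 2

theorem sm_uu (h1 : ∀ j, Smooth fun x => (σ x).1 j) (h2 : Smooth fun x => (σ x).2)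
    (hq : ∀ x, 0 < (σ x).2) (hΛ : 0 < Λ) : Smooth fun x => uu I c Λ t (σ x) :=
  (((sm_sq h1).add ((h2.div_const Λ).pow 2)).sqrt fun x => (w_pos (hq x) hΛ).ne').inv fun x =>
    (Real.sqrt_pos.2 (w_pos (hq x) hΛ)).ne'

theorem sm_ps (h1 : ∀ j, Smooth fun x => (σ x).1 j) (h2 : Smooth fun x => (σ x).2)
    (hq : ∀ x, 0 < (σ x).2) (hΛ : 0 < Λ) : (∀ j, Smooth fun x => (ps I c Λ k t (σ x)).1 j) ∧
      Smooth fun x => (ps I c Λ k t (σ x)).2 := by
  have S : ∀ b : ℝ, Smooth fun x => smoothTransition (b - sq I c t (σ x).1) := fun b =>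
    smoothTransition.contDiff.compM (cd_const.sub (sm_sq h1))
  have U := sm_uu (I := I) (c := c) (t := t) h1 h2 hq hΛ
  refine ⟨fun j => ?_, h2.mul (cd_const.add (cd_const.mul ((S 3).mul U)))⟩
  by_cases hj : j ∈ I <;> simp only [ps, hj, if_true, if_false]
  · exact (h1 j).add (cd_const.mul ((S 2).mul (U.mul ((h1 j).sub cd_const))))
  · exact (h1 j).add cd_const

theorem gr_ps (hg : Met g) {C κ L : ℝ} (hC : ∀ t, ∃ d, HasDerivAt smoothTransition d t ∧ |d| ≤ C ∧
    (t < 0 → d = 0)) (hc : 0 < c) (hΛ : 0 < Λ) (hL : 0 < L) (hκ : 0 ≤ κ) (hq : 0 < (σ x).2)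
    (hq' : (σ x).2 ≤ κ * Λ) (hk : 2 * (4 * I.card * C + (I.card + κ * c + 1)) ≤ k)
    (h1 : ∀ j, Gb g x (fun x => (σ x).1 j) ((σ x).2 / L))
    (h2 : Gb g x (fun x => (σ x).2) (κ * Λ / L * (σ x).2)) :
    (∀ j, gn g (fun x => (ps I c Λ k t (σ x)).1 j) x ≤ (ps I c Λ k t (σ x)).2 / L) ∧
    gn g (fun x => (ps I c Λ k t (σ x)).2) x ≤
      (κ + (k * (2 * I.card * C) * κ + (I.card + κ * c)) / c) * Λ / L * (ps I c Λ k t (σ x)).2 := by
  obtain ⟨e, he⟩ : ∃ e, (σ x).2 / L = c * e := ⟨(σ x).2 / L / c, by field_simp⟩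
  have e0 : 0 < e := pos_of_mul_pos_left (a := e) (b := c) (by rw [mul_comm, ← he]; positivity) hc.le
  have C0 : 0 ≤ C := (hC 0).elim fun d h => (abs_nonneg d).trans h.2.1
  have k0 : 0 ≤ k := le_trans (by positivity) hk
  have U0 := uu_nn (I := I) (c := c) (Λ := Λ) (t := t) (q := σ x)
  have U1 := uu_le1 (I := I) (c := c) (t := t) hq hΛ
  have U2 := uu_le2 (I := I) (c := c) (t := t) hq hΛ
  have M1 := one_le_mu (I := I) (c := c) (Λ := Λ) (t := t) (q := σ x) k0
  have R2 := Real.sq_sqrt (sq_nn (I := I) (c := c) (t := t) (y := (σ x).1))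
  have R0 := Real.sqrt_nonneg (sq I c t (σ x).1)
  rw [he] at h1
  have Y : ∀ j, Gb g x (fun x => (σ x).1 j - t j) (c * e) := fun j => by
    simpa using (h1 j).comp ((hasDerivAt_id' _).sub_const (t j))
  have S : Gb g x (fun x => sq I c t (σ x).1) (2 * I.card * √(sq I c t (σ x).1) * e) := by
    refine (Gb.sum hg I fun j _ => (Y j).comp (φ := fun v => (v / c) ^ 2)
      (((hasDerivAt_id' _).div_const c).fun_pow 2)).mono ((Finset.sum_le_card_nsmul _ _
        (2 * √(sq I c t (σ x).1) * e) fun j hj => ?_).trans_eq (by rw [nsmul_eq_mul]; ring))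
    have := abs_le_sq (c := c) (t := t) (y := (σ x).1) hj
    simp only [abs_mul, Nat.cast_ofNat, Nat.add_one_sub_one, pow_one, abs_two, abs_of_pos
      (one_div_pos.2 hc)]
    calc _ = 2 * |((σ x).1 j - t j) / c| * e := by field_simp
      _ ≤ _ := by gcongr
  have Dl : Gb g x (fun x => ((σ x).2 / Λ) ^ 2) (2 * ((σ x).2 / Λ) * (κ * (c * e))) := by
    refine (h2.comp (φ := fun v => (v / Λ) ^ 2) (((hasDerivAt_id' _).div_const Λ).fun_pow 2)).mono
      (le_of_eq ?_)
    rw [abs_of_pos (by positivity), ← he]; simp; field_simp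
  have W0 := Real.sqrt_pos.2 (w_pos (I := I) (c := c) (t := t) hq hΛ)
  have U : Gb g x (fun x => uu I c Λ t (σ x)) (uu I c Λ t (σ x) ^ 2 * (I.card + κ * c) * e) := by
    refine ((S.add hg Dl).comp (φ := fun v => (√v)⁻¹) ((Real.hasDerivAt_sqrt
      (w_pos hq hΛ).ne').fun_inv W0.ne')).mono ?_
    calc _ = uu I c Λ t (σ x) ^ 2 * (I.card * (uu I c Λ t (σ x) * √(sq I c t (σ x).1)) +
          κ * c * (uu I c Λ t (σ x) * (σ x).2 / Λ)) * e := by
          rw [abs_div, abs_neg, abs_of_pos (by positivity), abs_of_pos (by positivity), uu]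
          field_simp
      _ ≤ uu I c Λ t (σ x) ^ 2 * (I.card * 1 + κ * c * 1) * e := by
          gcongr; exact (div_le_one hΛ).2 U2
      _ = _ := by ring
  have H : ∀ b : ℝ, ∃ d, 0 ≤ d ∧ d ≤ C ∧ (b < sq I c t (σ x).1 → d = 0) ∧ Gb g x
      (fun x => smoothTransition (b - sq I c t (σ x).1))
        (d * (2 * I.card * √(sq I c t (σ x).1) * e)) := fun b => by
    obtain ⟨d, a1, a2, a3⟩ := hC (b - sq I c t (σ x).1)
    refine ⟨|d|, abs_nonneg d, a2, fun h => by simp [a3 (sub_neg.2 h)], ?_⟩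
    simpa using S.comp (φ := fun v => smoothTransition (b - v))
      (a1.comp _ ((hasDerivAt_id' _).const_sub b))
  have T0 := fun b => smoothTransition.nonneg (b - sq I c t (σ x).1)
  have T1 := fun b => smoothTransition.le_one (b - sq I c t (σ x).1)
  refine ⟨fun j => ?_, ?_⟩
  · have : (ps I c Λ k t (σ x)).2 / L = c * e * mu I c Λ k t (σ x) := by rw [← he, ps]; ring
    rw [this]
    by_cases hj : j ∈ I <;> simp only [ps, hj, if_true, if_false, add_zero]
    swap
    · exact (h1 j).2.trans (le_mul_of_one_le_right (by positivity) M1)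
    obtain ⟨d, d0, d1, d2, G⟩ := H 2
    refine ((h1 j).add hg ((gb_const 2).mul hg (G.mul hg (U.mul hg (Y j))))).2.trans ?_
    have Z : |(σ x).1 j - t j| ≤ c * √(sq I c t (σ x).1) := by
      rw [mul_comm, ← div_le_iff₀ hc, ← abs_of_pos hc, ← abs_div, abs_of_pos hc]
      exact abs_le_sq hj
    simp only [mul_zero, zero_add, abs_mul, abs_two, abs_of_nonneg U0, abs_of_nonneg (T0 _)]
    rcases lt_or_ge 2 (sq I c t (σ x).1) with h | h
    · rw [d2 h, smoothTransition.zero_of_nonpos (sub_nonpos.2 h.le)]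
      simpa using le_mul_of_one_le_right (by positivity) M1
    · rw [mu, smoothTransition.one_of_one_le (x := 3 - _) (by linarith), one_mul]
      calc _ ≤ c * e + 2 * (uu I c Λ t (σ x) * (c * √(sq I c t (σ x).1)) *
            (C * (2 * I.card * √(sq I c t (σ x).1) * e)) + 1 * (c * √(sq I c t (σ x).1) *
            (uu I c Λ t (σ x) ^ 2 * (I.card + κ * c) * e) + uu I c Λ t (σ x) * (c * e))) := by
            gcongr; exact T1 _
        _ = c * e * (1 + 2 * (2 * √(sq I c t (σ x).1) ^ 2 * I.card * C + ((I.card + κ * c) *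
            (uu I c Λ t (σ x) * √(sq I c t (σ x).1)) + 1)) * uu I c Λ t (σ x)) := by ring
        _ ≤ c * e * (1 + 2 * (2 * 2 * I.card * C + ((I.card + κ * c) * 1 + 1)) *
            uu I c Λ t (σ x)) := by gcongr; rwa [R2]
        _ ≤ _ := by gcongr; linarith
  · obtain ⟨d, d0, d1, -, G⟩ := H 3
    refine (h2.mul hg ((gb_const 1).add hg ((gb_const k).mul hg (G.mul hg U)))).2.trans ?_
    simp only [mul_zero, zero_add, abs_of_nonneg U0, abs_of_nonneg (T0 _), abs_of_nonneg k0,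
      abs_of_pos hq]
    have M2 : k * (smoothTransition (3 - sq I c t (σ x).1) * uu I c Λ t (σ x)) ≤
        mu I c Λ k t (σ x) := le_add_of_nonneg_left zero_le_one
    rw [← mu, abs_of_pos (one_pos.trans_le M1)]
    calc _ = mu I c Λ k t (σ x) * (κ * Λ / L * (σ x).2) + (k * (2 * I.card * d) * (σ x).2 *
          (uu I c Λ t (σ x) * √(sq I c t (σ x).1)) + (I.card + κ * c) * (uu I c Λ t (σ x) * (σ x).2)
          * (k * (smoothTransition (3 - sq I c t (σ x).1) * uu I c Λ t (σ x)))) * e := by ring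
      _ ≤ mu I c Λ k t (σ x) * (κ * Λ / L * (σ x).2) + (k * (2 * I.card * C) * (κ * Λ) *
          mu I c Λ k t (σ x) + (I.card + κ * c) * Λ * mu I c Λ k t (σ x)) * e := by
          have := U1.trans M1
          have := T0 3
          gcongr
      _ = _ := by
          rw [show e = (σ x).2 / L / c by rw [he]; field_simp]
          simp only [ps]; ring

end Vale.Agent.P223P
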