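import Mathlib.Analysis.SpecialFunctions.Pow.Integral
import Vale.Agent.P223P.Push

/-!
# P223P: the choice of the centre of a push (helper90)
-/

open MeasureTheory Filter Topology Set Metric

noncomputable section

namespace Vale.Agent.P223P

variable {J : ℕ} {I : Finset (Fin J)} {c k p a : ℝ}

/-- the extension by zero -/
def ext (I : Finset (Fin J)) (t : I → ℝ) (j : Fin J) : ℝ := if h : j ∈ I then t ⟨j, h⟩ else 0

theorem cont_ext : Continuous (ext I) := continuous_pi fun j => by
  unfold ext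
  split_ifs
  · exact continuous_apply _
  · exact continuous_const

theorem cont_mu {Z : Type} [TopologicalSpace Z] {t : Z → Fin J → ℝ} {q : Z → (Fin J → ℝ) × ℝ}
    {Λ : ℝ} (ht : Continuous t) (hq : Continuous q) (h0 : ∀ z, 0 < (q z).2) (hΛ : 0 < Λ) :
    Continuous fun z => mu I c Λ k (t z) (q z) := by
  have S : Continuous fun z => sq I c (t z) (q z).1 := by unfold sq; fun_prop
  have U : Continuous fun z => uu I c Λ (t z) (q z) := (S.add (by fun_prop)).sqrt.inv₀ fun z =>
    (Real.sqrt_pos.2 (w_pos (h0 z) hΛ)).ne'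
  have T := Real.smoothTransition.continuous
  unfold mu; fun_prop

theorem mu_avg (hc : 0 < c) (hk : 0 ≤ k) (h0 : 0 ≤ p) (hp : p < I.card) : ∃ C ≥ (0 : ℝ),
    ∀ Λ > (0 : ℝ), ∀ q : (Fin J → ℝ) × ℝ, 0 < q.2 →
      ∫ t in closedBall (0 : I → ℝ) a, (mu I c Λ k (ext I t) q ^ p - 1) ≤ C := by
  have fr : Module.finrank ℝ (I → ℝ) = I.card := by simp
  have c1 : 1 ≤ I.card := by exact_mod_cast h0.trans_lt hp
  have : Nonempty I := (Finset.card_pos.1 c1).to_subtype
  let G : (I → ℝ) → ℝ := (ball 0 (2 * c)).indicator fun t => ((2 + k) * c) ^ p * ‖t‖ ^ (-p)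
  have G0 : ∀ t, 0 ≤ G t := fun t => indicator_nonneg (fun _ _ => by positivity) t
  have hG : Integrable G := (integrable_indicator_iff measurableSet_ball).2
    (integrableOn_ball_of_norm_le_rpow (C := ((2 + k) * c) ^ p) (α := p) (fr ▸ c1) (fr ▸ hp)
      (.of_forall fun t => by rw [Real.norm_of_nonneg (by positivity)])
      ((measurable_norm.pow_const _).const_mul _).aestronglyMeasurable)
  refine ⟨∫ t, G t, integral_nonneg G0, fun Λ hΛ q hq => ?_⟩
  let y : I → ℝ := fun j => q.1 j
  have e : ∀ (t : I → ℝ) (j : I), (y - t) j = q.1 j - ext I t j := fun t j => by simp [y, ext]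
  calc _ ≤ ∫ t in closedBall (0 : I → ℝ) a, G (y - t) := by
        refine integral_mono_of_nonneg (.of_forall fun t => sub_nonneg.2
          (Real.one_le_rpow (one_le_mu hk) h0)) (hG.comp_sub_left y).integrableOn
          (ae_restrict_of_ae ?_)
        filter_upwards [compl_mem_ae_iff.2 (measure_singleton y)] with t ht
        rcases le_or_gt 3 (sq I c (ext I t) q.1) with h | h
        · simpa [mu_off h] using G0 _
        have r0 : 0 < ‖y - t‖ := norm_pos_iff.2 (sub_ne_zero.2 (Ne.symm ht))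
        have r1 : ‖y - t‖ < 2 * c := (pi_norm_lt_iff (by positivity)).2 fun j => by
          rw [e]; exact near hc h j.2
        have r2 : ‖y - t‖ ≤ √(sq I c (ext I t) q.1) * c :=
          (pi_norm_le_iff_of_nonneg (by positivity)).2 fun j => by
            rw [e, ← div_le_iff₀ hc, Real.norm_eq_abs, ← abs_of_pos hc, ← abs_div, abs_of_pos hc]
            exact abs_le_sq j.2
        have r3 := uu_le1 (I := I) (c := c) (t := ext I t) hq hΛ
        have r4 := uu_nn (I := I) (c := c) (Λ := Λ) (t := ext I t) (q := q)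
        have r5 : uu I c Λ (ext I t) q * ‖y - t‖ ≤ c := by nlinarith
        simp only [G]
        rw [indicator_of_mem (mem_ball_zero_iff.2 r1), Real.rpow_neg r0.le, ← div_eq_mul_inv,
          ← Real.div_rpow (by positivity) r0.le]
        refine (sub_le_self _ zero_le_one).trans (Real.rpow_le_rpow
          (zero_le_one.trans (one_le_mu hk)) ((mu_le hk).trans ?_) h0)
        rw [le_div_iff₀ r0]; nlinarith
    _ ≤ ∫ t, G (y - t) := setIntegral_le_integral (hG.comp_sub_left y) (.of_forall fun t => G0 _)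
    _ = _ := integral_sub_left_eq_self G _ y

/-- **the choice of the centre** -/
theorem sel (hc : 0 < c) (hk : 0 ≤ k) (h0 : 0 ≤ p) (hp : p < I.card) (ha : 0 < a) : ∃ C ≥ (0 : ℝ),
    ∀ Λ > (0 : ℝ), ∀ (X : Type) [TopologicalSpace X] [MeasurableSpace X] [OpensMeasurableSpace X]
      (ρ : Measure X) [IsFiniteMeasure ρ] (σ : X → (Fin J → ℝ) × ℝ) (φ : X → ℝ), Continuous σ →
      (∀ x, 1 ≤ (σ x).2) → Integrable φ ρ → (∀ x, 0 ≤ φ x) → ∃ t : Fin J → ℝ, (∀ j, |t j| ≤ a) ∧
        ∫ x, φ x * (mu I c Λ k t (σ x) ^ p - 1) ∂ρ ≤ C * ∫ x, φ x ∂ρ := by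
  obtain ⟨C, C0, hC⟩ := mu_avg (a := a) hc hk h0 hp
  have v0 := (measure_closedBall_pos (volume : Measure (I → ℝ)) 0 ha).ne'
  have v1 := (measure_closedBall_lt_top (μ := (volume : Measure (I → ℝ))) (x := 0) (r := a)).ne
  refine ⟨(volume.real (closedBall (0 : I → ℝ) a))⁻¹ * C, by positivity,
    fun Λ hΛ X _ _ _ ρ _ σ φ hσ h1 hφ φ0 => ?_⟩
  have h1' := fun x => one_pos.trans_le (h1 x)
  have : IsFiniteMeasure (volume.restrict (closedBall (0 : I → ℝ) a)) := isFiniteMeasure_restrict.2 v1
  have A : Integrable (Function.uncurry fun (x : X) (t : I → ℝ) =>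
      φ x * (mu I c Λ k (ext I t) (σ x) ^ p - 1)) (ρ.prod (volume.restrict (closedBall 0 a))) := by
    refine (hφ.comp_fst _).mul_bdd (c := (1 + k * Λ) ^ p) ((((cont_mu (cont_ext.comp continuous_snd)
      (hσ.comp continuous_fst) (fun z => h1' _) hΛ).rpow_const fun _ => .inr h0).sub
        continuous_const).aestronglyMeasurable) (.of_forall fun z => ?_)
    have := uu_le2 (I := I) (c := c) (t := ext I z.2) (h1' z.1) hΛ
    have := mul_le_mul_of_nonneg_left (h1 z.1) (uu_nn (I := I) (c := c) (Λ := Λ) (t := ext I z.2)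
      (q := σ z.1))
    rw [Real.norm_of_nonneg (sub_nonneg.2 (Real.one_le_rpow (one_le_mu hk) h0))]
    refine (sub_le_self _ zero_le_one).trans (Real.rpow_le_rpow
      (zero_le_one.trans (one_le_mu hk)) ((mu_le hk).trans ?_) h0)
    gcongr; linarith
  obtain ⟨t, ht, le⟩ := exists_le_setAverage v0 v1 A.integral_prod_right
  refine ⟨ext I t, fun j => ?_, le.trans ?_⟩
  · unfold ext
    split_ifs with h
    · exact (norm_le_pi_norm t _).trans (mem_closedBall_zero_iff.1 ht)
    · simpa using ha.le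
  rw [setAverage_eq, smul_eq_mul, mul_assoc]
  gcongr
  refine (integral_integral_swap A).symm.trans_le ?_
  rw [← integral_const_mul]
  refine integral_mono A.integral_prod_left (hφ.const_mul C) fun x => ?_
  simp only [integral_const_mul]
  rw [mul_comm C]
  exact mul_le_mul_of_nonneg_left (hC Λ hΛ _ (h1' x)) (φ0 x)

end Vale.Agent.P223P
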