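import Vale.Agent.P223F.Mt
import Vale.Agent.P223P.Avg

/-!
# P223P: the simultaneous pushes of all tuples of scores (helper90)
-/

open MeasureTheory Filter Topology Set
open Vale.Agent.P366M Vale.Agent.P223Y Vale.Agent.P223F

noncomputable section

namespace Vale.Agent.P223P

variable {n : ℕ} {X : Type} [Mf0 n X] {Γ : Type} [Group Γ] [MulAction Γ X] {F : Fr Γ}
  {K D B : Set X} {ν : Measure X} {χ : X → ℝ} {J : ℕ} {r c a p : ℝ}

theorem cover (d : Deck X Γ) (hν : Rm F fun _ => ν) (hK : IsCompact K) (hB : IsCompact B) :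
    ∃ N : ℕ, ∀ (A : Set F.Ω) (G : F.Ω → X → ℝ) (M : ℝ), Li F (fun _ => ν) G → Inv Γ G →
      (∀ ω x, 0 ≤ G ω x) → (∀ ω, ∀ x ∉ Un Γ A K ω, G ω x = 0) → 0 ≤ M →
      (∀ ω ∈ A, ∫ x in K, G ω x ∂ν ≤ M) → ∀ ω, ∫ x in B, G ω x ∂ν ≤ N * M := by
  classical
  refine ⟨(proper d hB hK).toFinset.card, fun A G M l i nn off M0 le ω => ?_⟩
  let f : Γ → X → ℝ := fun γ => if γ • ω ∈ A then ((γ • ·) ⁻¹' K).indicator (G ω) else 0
  have f0 : ∀ γ x, 0 ≤ f γ x := fun γ x => by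
    simp only [f]; split_ifs; exacts [indicator_nonneg (fun _ _ => nn _ _) _, le_rfl]
  have cK : ∀ γ : Γ, IsCompact ((γ • ·) ⁻¹' K) := fun γ => (hm d γ).isCompact_preimage.2 hK
  have f1 : ∀ γ, Integrable (f γ) ν := fun γ => by
    simp only [f]; split_ifs
    exacts [(integrable_indicator_iff (cK γ).measurableSet).2
      ((l.li ω).integrableOn_isCompact (cK γ)), integrable_zero _ _ _]
  have S := integrable_finsetSum (proper d hB hK).toFinset fun γ _ => f1 γ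
  calc _ ≤ ∫ x in B, ∑ γ ∈ (proper d hB hK).toFinset, f γ x ∂ν := by
        refine setIntegral_mono_on ((l.li ω).integrableOn_isCompact hB) S.integrableOn
          hB.measurableSet fun x hx => ?_
        by_cases h : x ∈ Un Γ A K ω
        · obtain ⟨γ, u, v⟩ := h
          refine le_trans (le_of_eq ?_) (Finset.single_le_sum (fun γ _ => f0 γ x)
            ((Finite.mem_toFinset _).2 ⟨x, hx, v⟩))
          simp only [f, if_pos u]
          exact (indicator_of_mem (by exact v) _).symm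
        · exact (off ω x h).trans_le (Finset.sum_nonneg fun γ _ => f0 γ x)
    _ ≤ ∫ x, ∑ γ ∈ (proper d hB hK).toFinset, f γ x ∂ν :=
        setIntegral_le_integral S (.of_forall fun x => Finset.sum_nonneg fun γ _ => f0 γ x)
    _ ≤ _ := by
        rw [integral_finsetSum _ fun γ _ => f1 γ, ← nsmul_eq_mul]
        refine Finset.sum_le_card_nsmul _ _ _ fun γ _ => ?_
        simp only [f]; split_ifs with h
        · refine le_trans (le_of_eq ?_) (le _ h)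
          rw [← integral_indicator hK.measurableSet]
          refine (integral_congr_ae (.of_forall fun x => ?_)).trans (hν.integral d γ ω _).symm
          simp only [indicator, mem_preimage, i γ ω x]
        · simpa using M0

variable (F ν K D J r) in
/-- the data of the pushes -/
structure Dt where
  L : ℝ
  Λ : ℝ
  M : ℝ
  g : F.Ω → Fld n X
  T : F.Ω → X → Fin J → ℝ
  Ψ : F.Ω → X → ℝ
  hL : 0 < L
  hΛ : 1 ≤ Λ
  hM : 0 ≤ M
  met : ∀ ω, Met (g ω)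
  li : Li F (fun _ => ν) Ψ
  inv : Inv Γ Ψ
  nn : ∀ ω x, 0 ≤ Ψ ω x
  sup : ∀ i, ∃ A, IsClopen A ∧ Sep Γ A D ∧ ∀ ω x, |T ω x i| < r → x ∈ Un Γ A K ω

variable (χ B a p) in
/-- the state after the pushes of the tuples in `S` -/
structure St (E : Dt F K D ν J r) (κ : ℝ) (S : Finset (Finset (Fin J)))
    (σ : F.Ω → X → (Fin J → ℝ) × ℝ) : Prop where
  inv : Inv Γ σ
  tr : Tr σ
  s1 : ∀ ω j, Smooth fun x => (σ ω x).1 j
  s2 : ∀ ω, Smooth fun x => (σ ω x).2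
  lo : ∀ ω x, 1 ≤ (σ ω x).2
  hi : ∀ ω x, (σ ω x).2 ≤ κ * E.Λ
  g1 : ∀ ω x j, gn (E.g ω) (fun x => (σ ω x).1 j) x ≤ (σ ω x).2 / E.L
  g2 : ∀ ω x, gn (E.g ω) (fun x => (σ ω x).2) x ≤ κ * E.Λ / E.L * (σ ω x).2
  side : ∀ ω x j, r ≤ |E.T ω x j| → (σ ω x).1 j = E.T ω x j
  off : ∀ ω x, (∀ I ∈ S, ∃ j ∈ I, r ≤ |E.T ω x j|) → σ ω x = (E.T ω x, 1)
  core : ∀ I ∈ S, ∀ ω x, (∀ j ∈ I, |(σ ω x).1 j| ≤ a) → E.Λ ≤ (σ ω x).2
  loc : ∀ ω, ∫ x in B, (σ ω x).2 ^ p * E.Ψ ω x ∂ν ≤ κ * E.M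
  ex : Ex F χ (fun _ => ν) (fun ω x => (σ ω x).2 ^ p * E.Ψ ω x) ≤ κ * Ex F χ (fun _ => ν) E.Ψ

theorem step [IsLocallyFiniteMeasure ν] (d : Deck X Γ) (hν : Rm F fun _ => ν) (hχ : Wt Γ χ)
    (hK : IsCompact K) (hB : IsCompact B) (hKD : K ⊆ interior D) (hKB : K ⊆ B) (hc : 0 < c)
    (ha : 0 < a) (hac : a ≤ c) (hr : 3 * c ≤ r) (h0 : 0 ≤ p) {I : Finset (Fin J)} (hp : p < I.card)
    (hI : I.card * (2 * a) ^ 2 ≤ c ^ 2) {κ : ℝ} (hκ : 1 ≤ κ) : ∃ κ' ≥ (1 : ℝ),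
    ∀ (E : Dt F K D ν J r) S σ, St B χ a p E κ S σ → ∃ σ', St B χ a p E κ' (insert I S) σ' := by
  obtain ⟨C, C0, hC⟩ := st_bd
  obtain ⟨k, hk⟩ : ∃ k, 2 * (4 * I.card * C + (I.card + κ * c + 1)) = k := ⟨_, rfl⟩
  have k2 : 2 ≤ k := by
    have : 0 ≤ 4 * I.card * C + (I.card + κ * c) := by positivity
    linarith
  have k0 : 0 ≤ k := by linarith
  obtain ⟨C', C1, hs⟩ := sel hc k0 h0 hp ha
  obtain ⟨N, hN⟩ := cover d hν hK hB
  obtain ⟨b, hb⟩ : ∃ b, (k * (2 * I.card * C) * κ + (I.card + κ * c)) / c = b := ⟨_, rfl⟩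
  have b0 : 0 ≤ b := by rw [← hb]; positivity
  have n0 : 0 ≤ N * (C' * κ) := by positivity
  have n1 : 0 ≤ C' * κ := by positivity
  refine ⟨κ + k + b + N * (C' * κ) + C' * κ, by linarith, fun E S σ H => ?_⟩
  obtain ⟨i, hi⟩ := Finset.card_pos.1 (show 0 < I.card by exact_mod_cast h0.trans_lt hp)
  obtain ⟨A, hA, sp, su⟩ := E.sup i
  have hΛ := one_pos.trans_le E.hΛ
  have hL := E.hL
  have lo := fun ω x => one_pos.trans_le (H.lo ω x)
  have fa : ∀ t : Fin J → ℝ, (∀ j, |t j| ≤ a) → ∀ ω x, ∀ j ∈ I, r ≤ |E.T ω x j| →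
      3 ≤ sq I c t (σ ω x).1 := fun t ht ω x j hj h =>
    far hc ((ht j).trans hac) hj (by rw [H.side ω x j h]; linarith)
  have cσ : ∀ ω, Continuous (σ ω) := fun ω =>
    (continuous_pi fun j => (H.s1 ω j).cont).prodMk (H.s2 ω).cont
  have lφ : ∀ {σ : F.Ω → X → (Fin J → ℝ) × ℝ}, Tr σ → (∀ ω, Smooth fun x => (σ ω x).2) →
      Li F (fun _ => ν) fun ω x => (σ ω x).2 ^ p * E.Ψ ω x := fun t s =>
    E.li.mul (t.map fun _ q => q.2 ^ p) fun ω => (s ω).cont.rpow_const fun _ => .inr h0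
  have l0 := lφ H.tr H.s2
  have φ0 : ∀ ω x, 0 ≤ (σ ω x).2 ^ p * E.Ψ ω x := fun ω x =>
    mul_nonneg (Real.rpow_nonneg (lo ω x).le _) (E.nn ω x)
  let P : F.Ω → (Fin J → ℝ) → Prop := fun ω t => (∀ j, |t j| ≤ a) ∧
    ∫ x in K, (σ ω x).2 ^ p * E.Ψ ω x * (mu I c E.Λ k t (σ ω x) ^ p - 1) ∂ν ≤
      C' * ∫ x in K, (σ ω x).2 ^ p * E.Ψ ω x ∂ν
  have lc : IsLocallyConstant P := (H.tr.prod E.li.tr).lc hK fun ω ω' e => funext fun t => by
    have e1 := fun x hx => congrArg Prod.fst (e x hx)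
    have e2 := fun x hx => congrArg Prod.snd (e x hx)
    simp only at e1 e2
    simp only [P]
    congr 2
    · exact setIntegral_congr_fun hK.measurableSet fun x hx => by simp only [e1 x hx, e2 x hx]
    · exact congrArg _ (setIntegral_congr_fun hK.measurableSet fun x hx => by
        simp only [e1 x hx, e2 x hx])
  have : IsFiniteMeasure (ν.restrict K) := isFiniteMeasure_restrict.2 hK.measure_lt_top.ne
  have hP : ∀ ω, P ω (Classical.epsilon (P ω)) := fun ω => Classical.epsilon_spec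
    (hs _ hΛ X (ν.restrict K) (σ ω) _ (cσ ω) (H.lo ω) ((l0.li ω).integrableOn_isCompact hK) (φ0 ω))
  have un : ∀ t : Fin J → ℝ, (∀ j, |t j| ≤ a) → ∀ ω, ∀ x ∉ Un Γ A K ω,
      ps I c E.Λ k t (σ ω x) = σ ω x := fun t ht ω x hx =>
    ps_off (fa t ht ω x i hi (not_lt.1 fun h => hx (su ω x h)))
  let _ : MulAction Γ ((Fin J → ℝ) × ℝ) :=
    { smul := fun _ a => a, one_smul := fun _ => rfl, mul_smul := fun _ _ _ => rfl }
  obtain ⟨σ', c1, c2, c3, c4⟩ := glue d (σ := σ) H.inv H.tr ((tr_lc (lc.comp Classical.epsilon)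
    fun t _ => t).map₂ H.tr fun _ t q => ps I c E.Λ k t q) hA hK hKD sp fun ω u x v w =>
      un _ (hP ω).1 ω x fun ⟨γ, u', v'⟩ => w (by
        have := sp γ⁻¹ ω u x v u' (interior_subset (hKD v'))
        rwa [this, one_smul] at v')
  have c1 : Inv Γ σ' := c1
  have ge : ∀ ω x, ∃ t : Fin J → ℝ, (∀ j, |t j| ≤ a) ∧
      σ' ω =ᶠ[𝓝 x] fun y => ps I c E.Λ k t (σ ω y) := fun ω x => by
    by_cases h : x ∈ Un Γ A K ω
    · obtain ⟨γ, u, v⟩ := h
      refine ⟨_, (hP (γ⁻¹ • ω)).1, (((cont_smul d γ⁻¹).tendsto x).eventually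
        (mem_interior_iff_mem_nhds.1 (hKD v))).mono fun y k => ?_⟩
      rw [← c1 γ⁻¹, c4 _ u _ k, H.inv]; rfl
    · exact ⟨_, (hP ω).1, mem_of_superset ((isClosed_un d hA.isClosed hK ω).isOpen_compl.mem_nhds h)
        fun y k => (c3 ω y k).trans (un _ (hP ω).1 ω y k).symm⟩
  choose t ht ge using ge
  have pt : ∀ ω x, σ' ω x = ps I c E.Λ k (t ω x) (σ ω x) := fun ω x => (ge ω x).self_of_nhds
  have sm := fun ω x => sm_ps (I := I) (c := c) (k := k) (t := t ω x) (H.s1 ω) (H.s2 ω) (lo ω) hΛ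
  have g1 := fun ω x j => (ge ω x).fun_comp fun q => q.1 j
  have g2 := fun ω x => (ge ω x).fun_comp Prod.snd
  have gr := fun ω x => gr_ps (t := t ω x) (E.met ω) hC hc hΛ hL (zero_le_one.trans hκ) (lo ω x)
    (H.hi ω x) hk.le (fun j => ⟨(H.s1 ω j).diff x, H.g1 ω x j⟩) ⟨(H.s2 ω).diff x, H.g2 ω x⟩
  have le := fun ω x => ps_le (I := I) (c := c) (t := t ω x) (lo ω x) hΛ k0
  have s2 : ∀ ω, Smooth fun x => (σ' ω x).2 := fun ω => (cd_iff le_rfl).2 fun x =>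
    ((cd_iff le_rfl).1 (sm ω x).2 x).congr_of_eventuallyEq (g2 ω x)
  have l1 := lφ c2 s2
  have lG := l1.sub l0
  have iφ : ∀ {σ : F.Ω → X → (Fin J → ℝ) × ℝ}, Inv Γ σ →
      Inv Γ fun ω x => (σ ω x).2 ^ p * E.Ψ ω x := fun i γ ω x => by simp only [i γ, E.inv γ]
  have iG : Inv Γ fun ω x => (σ' ω x).2 ^ p * E.Ψ ω x - (σ ω x).2 ^ p * E.Ψ ω x := fun γ ω x => by
    simp only [c1 γ, H.inv γ, E.inv γ]
  have on : ∀ ω ∈ A, ∫ x in K, ((σ' ω x).2 ^ p * E.Ψ ω x - (σ ω x).2 ^ p * E.Ψ ω x) ∂ν ≤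
      C' * ∫ x in K, (σ ω x).2 ^ p * E.Ψ ω x ∂ν := fun ω u => by
    refine le_trans (le_of_eq (setIntegral_congr_fun hK.measurableSet fun x v => ?_)) (hP ω).2
    simp only [c4 ω u x (interior_subset (hKD v)), ps, Function.comp]
    rw [Real.mul_rpow (lo ω x).le (zero_le_one.trans (one_le_mu k0))]; ring
  refine ⟨σ', c1, c2, fun ω j => (cd_iff le_rfl).2 fun x => ((cd_iff le_rfl).1 ((sm ω x).1 j)
    x).congr_of_eventuallyEq (g1 ω x j), s2, fun ω x => ?_, fun ω x => ?_, fun ω x j => ?_,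
    fun ω x => ?_, fun ω x j h => ?_, fun ω x h => ?_, fun I' hI' ω x h => ?_, fun ω => ?_, ?_⟩
  · rw [pt]; exact (H.lo ω x).trans (le ω x).1
  · rw [pt]; nlinarith [H.hi ω x, (le ω x).2]
  · rw [pt]; exact (gn_congr (g1 ω x j)).trans_le ((gr ω x).1 j)
  · refine (gn_congr (g2 ω x)).trans_le ((gr ω x).2.trans ?_)
    have := (lo ω x).trans_le (le ω x).1
    rw [pt, hb]; gcongr ?_ * _ / _ * _; linarith
  · rw [pt, ← H.side ω x j h]
    by_cases hj : j ∈ I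
    · rw [ps_off (fa _ (ht ω x) ω x j hj h)]
    · simp [ps, hj]
  · obtain ⟨j, hj, u⟩ := h I (by simp)
    rw [pt, ps_off (fa _ (ht ω x) ω x j hj u), H.off ω x fun I' hI' => h I' (by simp [hI'])]
  · rw [pt] at h ⊢
    rcases Finset.mem_insert.1 hI' with rfl | u
    · exact ps_core hc (lo ω x) hΛ k2 (ht ω x) hI h
    · exact (H.core I' u ω x fun j hj => ps_side (ht ω x j) (h j hj)).trans (le ω x).1
  · have := hN A _ (C' * (κ * E.M)) lG iG (fun ω x => sub_nonneg.2 (mul_le_mul_of_nonneg_right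
      (Real.rpow_le_rpow (lo ω x).le (by rw [pt]; exact (le ω x).1) h0) (E.nn ω x)))
      (fun ω x u => by rw [c3 ω x u, sub_self]) (by have := E.hM; positivity) (fun ω u =>
        (on ω u).trans (mul_le_mul_of_nonneg_left ((setIntegral_mono_set
          ((l0.li ω).integrableOn_isCompact hB) (.of_forall (φ0 ω)) hKB.eventuallyLE).trans
            (H.loc ω)) C1)) ω
    rw [integral_sub ((l1.li ω).integrableOn_isCompact hB) ((l0.li ω).integrableOn_isCompact hB)]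
      at this
    nlinarith [H.loc ω, E.hM]
  · have sK := sp.mono subset_rfl (hKD.trans interior_subset)
    have e1 := Ex_un hν hχ d hA hK sK lG iG
    have e2 := Ex_un hν hχ d hA hK sK l0 (iφ H.inv)
    have e3 := Ex_mono hν hχ (l0.ind (tr_un d hA hK) fun ω =>
      (isClosed_un d hA.isClosed hK ω).measurableSet) l0 fun ω => indicator_le_self' fun x _ => φ0 ω x
    have e4 : (fun ω => (Un Γ A K ω).indicator fun x => (σ' ω x).2 ^ p * E.Ψ ω x -
        (σ ω x).2 ^ p * E.Ψ ω x) = fun ω x => (σ' ω x).2 ^ p * E.Ψ ω x - (σ ω x).2 ^ p * E.Ψ ω x :=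
      funext fun ω => indicator_eq_self.2 fun x u => by_contra fun v => u (by simp only [c3 ω x v, sub_self])
    have lc : ∀ {G : F.Ω → X → ℝ}, Tr G → Integrable (fun ω => ∫ x in K, G ω x ∂ν) F.μ := fun t =>
      lc_int (t.lc hK fun ω ω' e => setIntegral_congr_fun hK.measurableSet e)
    have e5 := setIntegral_mono_on (lc lG.tr).integrableOn ((lc l0.tr).const_mul C').integrableOn
      hA.isOpen.measurableSet on
    rw [e4, Ex_sub hν hχ l1 l0] at e1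
    rw [integral_const_mul, ← e1, ← e2] at e5
    have e6 := Ex_nonneg hχ (ν := fun _ => ν) E.nn
    have e7 := mul_le_mul_of_nonneg_left (e3.trans H.ex) C1
    nlinarith [H.ex]

theorem steps [IsLocallyFiniteMeasure ν] (d : Deck X Γ) (hν : Rm F fun _ => ν) (hχ : Wt Γ χ)
    (hK : IsCompact K) (hB : IsCompact B) (hKD : K ⊆ interior D) (hKB : K ⊆ B) (hc : 0 < c)
    (ha : 0 < a) (hac : a ≤ c) (hr : 3 * c ≤ r) (h0 : 0 ≤ p) (S : Finset (Finset (Fin J)))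
    (hS : ∀ I ∈ S, p < I.card ∧ I.card * (2 * a) ^ 2 ≤ c ^ 2) : ∃ κ ≥ (1 : ℝ),
    ∀ (E : Dt F K D ν J r) σ, St B χ a p E 1 ∅ σ → ∃ σ', St B χ a p E κ S σ' := by
  induction S using Finset.induction_on with
  | empty => exact ⟨1, le_rfl, fun E σ h => ⟨σ, h⟩⟩
  | insert I S _ ih =>
    obtain ⟨κ, h1, h2⟩ := ih fun I hI => hS I (by simp [hI])
    obtain ⟨κ', h3, h4⟩ := step d hν hχ hK hB hKD hKB hc ha hac hr h0 (hS I (by simp)).1
      (hS I (by simp)).2 h1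
    exact ⟨κ', h3, fun E σ h => (h2 E σ h).elim fun σ' h' => h4 E S σ' h'⟩

end Vale.Agent.P223P
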