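import Vale.Agent.P223A.Bas
import Vale.Agent.P223P.Stp

/-!
# P223P: the stage `FF` (helper90)
-/

open MeasureTheory Filter Topology Set
open Vale.Agent.P366M Vale.Agent.P223Y Vale.Agent.P223F Vale.Agent.P223A

noncomputable section

namespace Vale.Agent.P223P

theorem ff (n : ℕ) : FF n := fun J => by
  have n0 : (0 : ℝ) ≤ n := n.cast_nonneg
  refine ⟨1 / (6 * (n + 1)), by positivity, (div_le_one (by positivity)).2 (by linarith),
    fun r hr X Γ _ _ _ g₀ χ G F K D => ?_⟩
  by_cases hK : IsCompact K ∧ K ⊆ interior D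
  swap
  · exact ⟨1, le_rfl, fun _ _ _ _ _ _ _ _ _ h => (hK ⟨h.cK, h.sub⟩).elim⟩
  have := G.riem.met.locFin
  have hB := hK.1.union G.wt.cs.isCompact
  obtain ⟨H, hH⟩ := G.wt.sm.cont.bounded_above_of_compact_support G.wt.cs
  obtain ⟨x₀, -⟩ := G.deck.coc
  have H0 := (norm_nonneg _).trans (hH x₀)
  obtain ⟨κ, k1, hκ⟩ := steps (F := F) (J := J) (r := r) (c := r / 3) (a := 1 / (6 * (n + 1)) * r)
    (p := n + 1 / 2) G.deck G.rm G.wt hK.1 hB hK.2 subset_union_left (by positivity) (by positivity)
    (by rw [div_mul_eq_mul_div]; gcongr <;> linarith) (by linarith) (by positivity)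
    (Finset.univ.powersetCard (n + 1)) fun I hI => by
      rw [(Finset.mem_powersetCard.1 hI).2]; push_cast
      refine ⟨by linarith, ?_⟩
      calc _ = (r / 3) ^ 2 / (n + 1) := by field_simp; ring
        _ ≤ _ := div_le_self (by positivity) (by linarith)
  have V0 : 0 ≤ H * ((1 + κ) * (vol g₀).real (K ∪ tsupport χ)) := by positivity
  refine ⟨κ + H * ((1 + κ) * (vol g₀).real (K ∪ tsupport χ)), by linarith,
    fun L Λ m A T g Φ hL hΛ hS _ hg hT rΦ cΦ hΦ => ?_⟩
  obtain ⟨ω₀⟩ := nonempty_of_isProbabilityMeasure F.μ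
  have m0 := (hΦ ω₀ x₀).1.trans (hΦ ω₀ x₀).2
  have rT := rn_pi fun i => (hS.rs i).toRn
  have lΨ := li_ge hS.rs (meas_nt r) (n + 1) (li_cont G.riem.met rΦ.tr cΦ)
  have Ψ0 : ∀ o x, 0 ≤ ge (n + 1) (nt r fun i => T i o x) * Φ o x := fun o x =>
    mul_nonneg (ge_nonneg _ _) (hΦ o x).1
  have ic : ∀ b : ℝ, IntegrableOn (fun _ => b) (K ∪ tsupport χ) (vol g₀) := fun b =>
    integrableOn_const hB.measure_lt_top.ne
  obtain ⟨σ, h⟩ := hκ ⟨L, Λ, m * (vol g₀).real (K ∪ tsupport χ), g, fun o x i => T i o x, _, hL, hΛ,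
    by positivity, hg, lΨ, (rT.map₂ rΦ fun t y => ge (n + 1) (nt r t) * y).inv, Ψ0,
    fun i => ⟨A i, hS.clo i, hS.sep i, fun o x u => hS.sup i o x (abs_lt.1 u).1⟩⟩
    (fun o x => (fun i => T i o x, 1)) ⟨(rT.map fun t => (t, (1 : ℝ))).inv,
      (rT.map fun t => (t, (1 : ℝ))).tr, fun o j => (hS.rs j).sm o, fun _ => cd_const,
      fun _ _ => le_rfl, fun _ _ => by simpa using hΛ, fun o x j => hT j o x,
      fun o x => (gb_const 1).2.trans (by positivity), fun _ _ _ _ => rfl, fun _ _ _ => rfl,
      by simp, fun o => by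
        simp only [Real.one_rpow, one_mul]
        refine (setIntegral_mono_on ((lΨ.li o).integrableOn_isCompact hB) (ic m) hB.measurableSet
          fun x _ => (mul_le_of_le_one_left (hΦ o x).1 (ge_le _ _)).trans (hΦ o x).2).trans_eq ?_
        rw [setIntegral_const, smul_eq_mul, mul_comm], by simp⟩
  have of : ∀ o x, (nt r fun i => T i o x) ≤ n → σ o x = (fun i => T i o x, 1) := fun o x u =>
    h.off o x fun I hI => by_contra fun v => by
      push Not at v
      have : I.card ≤ nt r fun i => T i o x := Finset.card_le_card fun j hj => by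
        simpa using (v j hj).le
      rw [(Finset.mem_powersetCard.1 hI).2] at this; omega
  have lo := fun o x => one_pos.trans_le (h.lo o x)
  have pw : ∀ o x, (σ o x).2 ^ n * √(σ o x).2 = (σ o x).2 ^ (n + 1 / 2 : ℝ) := fun o x => by
    rw [Real.rpow_add (lo o x), Real.rpow_natCast, Real.sqrt_eq_rpow]
  have lφ := lΨ.mul (h.tr.map fun _ q => q.2 ^ (n + 1 / 2 : ℝ)) fun o =>
    (h.s2 o).cont.rpow_const fun _ => .inr (by positivity)
  refine ⟨fun i o x => (σ o x).1 i, fun o x => (σ o x).2, ⟨hS.cK, hS.cD, hS.sub, hS.clo, hS.sep,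
    fun i => ⟨Rn.map ⟨h.tr, h.inv⟩ fun q => q.1 i, fun o => h.s1 o i⟩, fun i o x u => hS.sup i o x ?_,
    fun o x => (hS.cov o x).imp fun i u => u.trans_eq (h.side o x i (u.trans (le_abs_self _))).symm⟩,
    ⟨Rn.map ⟨h.tr, h.inv⟩ Prod.snd, h.s2⟩, fun o x => ⟨h.lo o x, (h.hi o x).trans ?_,
      (h.g2 o x).trans ?_, h.g1 o x, fun u => by simp [of o x u], fun u => ?_⟩, fun o => ?_, ?_⟩
  · by_contra v
    exact v (u.trans_eq (h.side o x i (le_abs.2 (.inr (by simp only; linarith)))))
  · simp only; gcongr; linarith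
  · have := lo o x
    simp only; gcongr; linarith
  · obtain ⟨I, a, b⟩ := Finset.exists_subset_card_eq u
    exact h.core I (Finset.mem_powersetCard.2 ⟨Finset.subset_univ _, b⟩) o x fun j hj =>
      (Finset.mem_filter.1 (a hj)).2
  · have i1 := (lφ.li o).integrableOn_isCompact hB
    have := h.loc o
    calc _ ≤ ∫ x, (K ∪ tsupport χ).indicator (fun x => H * (m + (σ o x).2 ^ (n + 1 / 2 : ℝ) *
          (ge (n + 1) (nt r fun i => T i o x) * Φ o x))) x ∂vol g₀ := by
          refine integral_mono_of_nonneg (.of_forall fun x => ?_) ((integrable_indicator_iff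
            hB.measurableSet).2 (((ic m).add i1).const_mul H)) (.of_forall fun x => ?_)
          · have := G.wt.nn x; have := (hΦ o x).1; have := lo o x
            positivity
          have := (hΦ o x).1; have := lo o x; have := Ψ0 o x
          by_cases u : x ∈ K ∪ tsupport χ
          · rw [indicator_of_mem u]
            refine mul_le_mul ((le_abs_self _).trans (hH x)) ?_ (by positivity) H0
            rw [pw]
            by_cases v : (nt r fun i => T i o x) ≤ n
            · simp only [of o x v, Real.one_rpow]; linarith [(hΦ o x).2]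
            · rw [ge, if_pos (by omega)]; linarith
          · simp [indicator_of_notMem u, image_eq_zero_of_notMem_tsupport fun v => u (.inr v)]
      _ ≤ _ := by
          rw [integral_indicator hB.measurableSet, integral_const_mul, integral_add (ic m) i1,
            setIntegral_const, smul_eq_mul]
          have := mul_le_mul_of_nonneg_left this H0
          simp only at this
          nlinarith
  · have := h.ex
    have e := Ex_nonneg G.wt (ν := fun _ => vol g₀) Ψ0
    simp only [E0, pw, mul_comm (Φ _ _), mul_left_comm (ge _ _)] at *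
    nlinarith

end Vale.Agent.P223P
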